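import Vale.Agent.P173.GdDefs
import Vale.Agent.P173.H312.Defs
import Vale.Agent.P173.H312.Main

namespace Vale.Agent.Results.P173.HereditaryCounterexamples

open Vale.Agent.P173 CategoryTheory Cardinal

universe u v

/-- **The Eilenberg–Ganea conjecture fails in every cardinality `≥ ℵ₃`, for subgroups of
right-angled Coxeter groups, and it fails for all subgroups of small index.** For every uncountable
cardinal `mu` and every cardinal `kap ≥ mu⁺⁺` there is a group `Γ` of cardinality `kap`, a subgroup
of a right-angled Coxeter group, with `cd Γ = 2` and `gd Γ > 2` such that every subgroup `Δ` of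
index less than `mu` has cohomological dimension two over every nonzero commutative ring, is not
isomorphic to a subgroup of the fundamental group of any aspherical CW complex of dimension at most
two, and every group that contains `Δ` has geometric dimension greater than two. -/
theorem result (mu kap : Cardinal.{0}) (hmu : ℵ₀ < mu)
    (hkap : Order.succ (Order.succ mu) ≤ kap) :
    ∃ (Γ : Type) (_ : Group Γ), #Γ = kap ∧
      projectiveDimension (Rep.trivial ℤ Γ ℤ) = 2 ∧ ¬ GdLE.{u, v} Γ 2 ∧
      (∃ (B : Type) (M : CoxeterMatrix B), (∀ i j, i ≠ j → M i j = 2 ∨ M i j = 0) ∧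
        ∃ f : Γ →* M.Group, Function.Injective f) ∧
      ∀ Δ : Subgroup Γ, #(Γ ⧸ Δ) < mu →
        (∀ (k : Type) [CommRing k] [Nontrivial k],
          projectiveDimension (Rep.trivial k Δ k) = 2) ∧
        ¬ EmbedsInAspherical.{u, v} Δ 2 ∧
        ∀ (H : Type) [Group H] (f : Δ →* H), Function.Injective f → ¬ GdLE.{u, v} H 2 :=
  main_theorem mu kap hmu hkap

end Vale.Agent.Results.P173.HereditaryCounterexamples
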