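import Vale.Agent.P173.H956.Defs
import Vale.Agent.P173.H956.Swindle
import Vale.Agent.P173.H956.OverK

namespace Vale.Agent.Results.P173.UnrealizableResolution

open Vale.Agent.P173 CategoryTheory

universe u v w z

/-- **The Eilenberg–Ganea conjecture is false, and so is its weak form over every ring: the
relation modules are stably free, but no basis is realised by relators.** There is a group `Γ` with
`cd Γ = 2` and `gd Γ > 2` such that
* for every generating family `φ` of `Γ`, after adding trivial generators to `φ`, the relation
  module (the group of 1-cycles of the Cayley graph) is a free `ℤ[Γ]`-module;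
* for no presentation of `Γ` do the relators form a basis of the relation module;
* for no presentation of `Γ` and no nonzero commutative ring `k` are the 1-cycles given by the
  relators and their translates linearly independent over `k`. -/
theorem result : ∃ (Γ : Type) (_ : Group Γ),
    projectiveDimension (Rep.trivial ℤ Γ ℤ) = 2 ∧ ¬ GdLE.{u, v} Γ 2 ∧
    (∀ (X : Type) (φ : X → Γ), Function.Surjective (FreeGroup.lift φ) →
      ∃ (Y : Type) (b : Y → ((X ⊕ Y) × Γ →₀ ℤ)),
        IsRelationBasis (Sum.elim φ fun _ : Y => (1 : Γ)) b) ∧
    (∀ P : Pres.{w} Γ, ¬ IsRelationBasis P.φ fun r => pathChain P.φ (P.rel r) 1) ∧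
    ∀ (P : Pres.{w} Γ) (k : Type z) [CommRing k] [Nontrivial k],
      ¬ LinearIndependent k fun q : P.R × Γ =>
        (translate q.2 (pathChain P.φ (P.rel q.1) 1)).mapRange (Int.cast : ℤ → k) Int.cast_zero :=
  ⟨GG bigI, inferInstance, cd_eq_two,
    not_gdLE_of_injective (not_embedsInAspherical fun P => not_aspherical P) (MonoidHom.id _)
      Function.injective_id,
    fun _ φ hφ => H956.exists_relationBasis φ hφ (hasProjectiveDimensionLE_two bigI),
    fun P => H956.not_isRelationBasis_of_not_aspherical P (not_aspherical P),
    fun P k _ _ => H956.not_linearIndependent_of_not_aspherical P (not_aspherical P) k⟩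

end Vale.Agent.Results.P173.UnrealizableResolution
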